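/-
helper29: amplification (tensor-power / read-once composition) lemma for S0085.

If ONE balanced Boolean function `g` on `m` variables has all Fourier–Walsh coefficients above
level `d0` vanishing and normalised level-one sum `w > √d0`, then the k-fold read-once
composition of `g` witnesses the frozen statement S0085 for every `C`.
-/
import Mathlib

set_option autoImplicit false
set_option linter.unusedSectionVars false

namespace Crest.Agent.Helper29.S85

open Finset

/-- sign of a Boolean: `true ↦ 1`, `false ↦ -1`. -/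
def sg (b : Bool) : ℝ := if b then 1 else -1

@[simp] lemma sg_true : sg true = 1 := by simp [sg]
@[simp] lemma sg_false : sg false = -1 := by simp [sg]

lemma sg_mul_self (b : Bool) : sg b * sg b = 1 := by cases b <;> simp

lemma sg_ne_zero (b : Bool) : sg b ≠ 0 := by cases b <;> simp

lemma sum_sg : ∑ b : Bool, sg b = 0 := by simp

section general

variable {ι κ : Type} [Fintype ι] [DecidableEq ι] [Fintype κ] [DecidableEq κ]

/-- Walsh character. -/
def chi (S : Finset ι) (x : ι → Bool) : ℝ := ∏ i ∈ S, sg (x i)

/-- unnormalised Fourier–Walsh coefficient. -/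
def co (f : (ι → Bool) → Bool) (S : Finset ι) : ℝ := ∑ x : ι → Bool, sg (f x) * chi S x

lemma chi_eq_prod_univ (S : Finset ι) (x : ι → Bool) :
    chi S x = ∏ i, (if i ∈ S then sg (x i) else 1) := by
  unfold chi
  rw [Fintype.prod_ite_mem]

/-- sum of a character over the cube. -/
lemma sum_chi (S : Finset ι) :
    ∑ x : ι → Bool, chi S x = if S = ∅ then (2 : ℝ) ^ Fintype.card ι else 0 := by
  have h2 := Fintype.prod_sum (fun (i : ι) (b : Bool) => if i ∈ S then sg b else (1 : ℝ))
  beta_reduce at h2
  simp only [chi_eq_prod_univ]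
  rw [← h2]
  by_cases hS : S = ∅
  · subst hS
    simp
  · rw [if_neg hS]
    obtain ⟨i, hi⟩ := Finset.nonempty_iff_ne_empty.mpr hS
    apply Finset.prod_eq_zero (Finset.mem_univ i)
    simp [hi]

/-- orthogonality of characters (sum over the index set). -/
lemma sum_chi_mul_chi (x y : ι → Bool) :
    ∑ S : Finset ι, chi S x * chi S y = if x = y then (2 : ℝ) ^ Fintype.card ι else 0 := by
  have h1 : ∀ S : Finset ι, chi S x * chi S y = ∏ i ∈ S, (sg (x i) * sg (y i)) := by
    intro S; unfold chi; rw [Finset.prod_mul_distrib]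
  simp_rw [h1]
  rw [← Finset.powerset_univ, ← Finset.prod_one_add]
  by_cases hxy : x = y
  · subst hxy
    simp [sg_mul_self]
    norm_num
  · rw [if_neg hxy]
    obtain ⟨i, hi⟩ := Function.ne_iff.mp hxy
    apply Finset.prod_eq_zero (Finset.mem_univ i)
    revert hi
    cases x i <;> cases y i <;> simp

/-- Fourier inversion. -/
lemma inversion (f : (ι → Bool) → Bool) (y : ι → Bool) :
    ∑ S : Finset ι, co f S * chi S y = sg (f y) * (2 : ℝ) ^ Fintype.card ι := by
  unfold co
  simp_rw [Finset.sum_mul]
  rw [Finset.sum_comm]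
  have : ∀ x : ι → Bool, ∑ S : Finset ι, sg (f x) * chi S x * chi S y
      = sg (f x) * (if x = y then (2 : ℝ) ^ Fintype.card ι else 0) := by
    intro x
    rw [← sum_chi_mul_chi, Finset.mul_sum]
    apply Finset.sum_congr rfl
    intro S _; ring
  simp_rw [this]
  simp

end general

section composition

variable {ι κ : Type} [Fintype ι] [DecidableEq ι] [Fintype κ] [DecidableEq κ]

/-- read-once composition `f ∘ (g, …, g)`. -/
def comp (f : (ι → Bool) → Bool) (g : (κ → Bool) → Bool) : (ι × κ → Bool) → Bool :=
  fun x => f (fun i => g (fun j => x (i, j)))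

/-- the `i`-th section of a set of pairs. -/
def sec (S : Finset (ι × κ)) (i : ι) : Finset κ := univ.filter (fun j => (i, j) ∈ S)

lemma chi_prod (S : Finset (ι × κ)) (x : ι × κ → Bool) :
    chi S x = ∏ i, chi (sec S i) (fun j => x (i, j)) := by
  rw [chi_eq_prod_univ, Fintype.prod_prod_type]
  apply Finset.prod_congr rfl
  intro i _
  unfold chi sec
  rw [Finset.prod_filter]

lemma card_eq_sum_sec (S : Finset (ι × κ)) : S.card = ∑ i, (sec S i).card := by
  rw [Finset.card_eq_sum_ones, ← Fintype.sum_ite_mem, Fintype.sum_prod_type]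
  apply Finset.sum_congr rfl
  intro i _
  unfold sec
  rw [Finset.card_eq_sum_ones, Finset.sum_filter]

/-- Fourier coefficients of a read-once composition. -/
lemma co_comp (f : (ι → Bool) → Bool) (g : (κ → Bool) → Bool) (S : Finset (ι × κ)) :
    co (comp f g) S * (2 : ℝ) ^ Fintype.card ι =
      ∑ T : Finset ι, co f T *
        ∏ i, (if i ∈ T then co g (sec S i) else ∑ y : κ → Bool, chi (sec S i) y) := by
  have h1 : ∀ x : ι × κ → Bool, sg (comp f g x) * chi S x * (2 : ℝ) ^ Fintype.card ι
      = ∑ T : Finset ι, co f T * (chi T (fun i => g (fun j => x (i, j))) * chi S x) := by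
    intro x
    have := inversion f (fun i => g (fun j => x (i, j)))
    unfold comp
    rw [mul_right_comm, ← this, Finset.sum_mul]
    apply Finset.sum_congr rfl
    intro T _; ring
  have h0 : co (comp f g) S * (2 : ℝ) ^ Fintype.card ι
      = ∑ x : ι × κ → Bool, sg (comp f g x) * chi S x * (2 : ℝ) ^ Fintype.card ι := by
    unfold co; rw [Finset.sum_mul]
  rw [h0]
  simp_rw [h1]
  rw [Finset.sum_comm]
  apply Finset.sum_congr rfl
  intro T _
  rw [← Finset.mul_sum]
  congr 1
  have h2 : ∀ x : ι × κ → Bool, chi T (fun i => g (fun j => x (i, j))) * chi S x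
      = ∏ i, ((if i ∈ T then sg (g (fun j => x (i, j))) else 1)
          * chi (sec S i) (fun j => x (i, j))) := by
    intro x
    rw [chi_eq_prod_univ T, chi_prod, ← Finset.prod_mul_distrib]
  simp_rw [h2]
  have h3 := Fintype.prod_sum
    (fun (i : ι) (y : κ → Bool) => (if i ∈ T then sg (g y) else 1) * chi (sec S i) y)
  beta_reduce at h3
  have h4 : ∑ x : ι × κ → Bool, ∏ i, ((if i ∈ T then sg (g (fun j => x (i, j))) else 1)
          * chi (sec S i) (fun j => x (i, j)))
      = ∑ z : ι → κ → Bool, ∏ i, ((if i ∈ T then sg (g (z i)) else 1) * chi (sec S i) (z i)) :=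
    Fintype.sum_equiv (Equiv.curry ι κ Bool) _ _ (fun x => rfl)
  rw [h4, ← h3]
  apply Finset.prod_congr rfl
  intro i _
  by_cases hi : i ∈ T
  · simp [hi, co]
  · simp [hi]

/-- degree is submultiplicative under composition. -/
lemma co_comp_eq_zero (f : (ι → Bool) → Bool) (g : (κ → Bool) → Bool) (d e : ℕ)
    (hf : ∀ T : Finset ι, d < T.card → co f T = 0)
    (hg : ∀ U : Finset κ, e < U.card → co g U = 0)
    (S : Finset (ι × κ)) (hS : d * e < S.card) : co (comp f g) S = 0 := by
  have h := co_comp f g S
  have h2 : ∑ T : Finset ι, co f T *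
      ∏ i, (if i ∈ T then co g (sec S i) else ∑ y : κ → Bool, chi (sec S i) y) = 0 := by
    apply Finset.sum_eq_zero
    intro T _
    by_contra hne
    have hfT : co f T ≠ 0 := left_ne_zero_of_mul hne
    have hprod := right_ne_zero_of_mul hne
    have hT : T.card ≤ d := by
      by_contra hlt; exact hfT (hf T (not_le.mp hlt))
    rw [Finset.prod_ne_zero_iff] at hprod
    have hsec : ∀ i, (sec S i).card ≤ if i ∈ T then e else 0 := by
      intro i
      have hi' := hprod i (Finset.mem_univ i)
      by_cases hi : i ∈ T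
      · rw [if_pos hi] at hi' ⊢
        by_contra hlt; exact hi' (hg _ (not_le.mp hlt))
      · rw [if_neg hi] at hi' ⊢
        rw [sum_chi] at hi'
        by_cases hemp : sec S i = ∅
        · rw [hemp]; simp
        · rw [if_neg hemp] at hi'; exact absurd rfl hi'
    have : S.card ≤ d * e := by
      rw [card_eq_sum_sec]
      calc ∑ i, (sec S i).card ≤ ∑ i, (if i ∈ T then e else 0) :=
            Finset.sum_le_sum (fun i _ => hsec i)
        _ = T.card * e := by rw [Fintype.sum_ite_mem]; simp
        _ ≤ d * e := Nat.mul_le_mul_right e hT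
    omega
  rw [h2] at h
  have h2pos : (2 : ℝ) ^ Fintype.card ι ≠ 0 := by positivity
  exact (mul_eq_zero.mp h).resolve_right h2pos

lemma sec_singleton (i0 : ι) (j0 : κ) (i : ι) :
    sec ({(i0, j0)} : Finset (ι × κ)) i = if i = i0 then {j0} else ∅ := by
  ext j
  unfold sec
  by_cases h : i = i0
  · subst h; simp
  · simp [h]

/-- level-one coefficients of a composition with a balanced inner function. -/
lemma co_comp_singleton (f : (ι → Bool) → Bool) (g : (κ → Bool) → Bool)
    (hbal : co g ∅ = 0) (i0 : ι) (j0 : κ) :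
    co (comp f g) {(i0, j0)} * (2 : ℝ) ^ Fintype.card ι
      = co f {i0} * (co g {j0} * ((2 : ℝ) ^ Fintype.card κ) ^ (Fintype.card ι - 1)) := by
  rw [co_comp]
  rw [Finset.sum_eq_single {i0}]
  · congr 1
    have hfac : ∀ i, (if i ∈ ({i0} : Finset ι) then co g (sec {(i0, j0)} i)
          else ∑ y : κ → Bool, chi (sec ({(i0, j0)} : Finset (ι × κ)) i) y)
        = if i = i0 then co g {j0} else (2 : ℝ) ^ Fintype.card κ := by
      intro i
      by_cases h : i = i0
      · subst h; simp [sec_singleton]
      · simp [h, sec_singleton, sum_chi]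
    simp_rw [hfac]
    rw [Finset.prod_ite, Finset.filter_eq', Finset.filter_ne']
    simp
  · intro T _ hT
    apply mul_eq_zero_of_right
    by_cases h : i0 ∈ T
    · have hex : ∃ i ∈ T, i ≠ i0 := by
        by_contra hcon
        push Not at hcon
        apply hT
        ext i; constructor
        · intro hi; simp [hcon i hi]
        · intro hi; simp at hi; rw [hi]; exact h
      obtain ⟨i, hi, hne⟩ := hex
      apply Finset.prod_eq_zero (Finset.mem_univ i)
      rw [if_pos hi, sec_singleton, if_neg hne, hbal]
    · apply Finset.prod_eq_zero (Finset.mem_univ i0)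
      rw [if_neg h, sec_singleton, if_pos rfl, sum_chi, if_neg (Finset.singleton_ne_empty _)]
  · intro h; exact absurd (Finset.mem_univ _) h

/-- `f` has all coefficients above level `d` vanishing and normalised level-one sum `w`. -/
structure Good (f : (ι → Bool) → Bool) (d : ℕ) (w : ℝ) : Prop where
  deg : ∀ S : Finset ι, d < S.card → co f S = 0
  lvl : ∑ i, co f {i} / (2 : ℝ) ^ Fintype.card ι = w

lemma Good.comp {f : (ι → Bool) → Bool} {g : (κ → Bool) → Bool} {d e : ℕ} {w v : ℝ}
    (hf : Good f d w) (hg : Good g e v) (hbal : co g ∅ = 0) :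
    Good (comp f g) (d * e) (w * v) where
  deg := co_comp_eq_zero f g d e hf.deg hg.deg
  lvl := by
    rw [Fintype.sum_prod_type, ← hf.lvl, ← hg.lvl, Finset.sum_mul_sum]
    apply Finset.sum_congr rfl; intro i _
    apply Finset.sum_congr rfl; intro j _
    have h := co_comp_singleton f g hbal i j
    have hn : 0 < Fintype.card ι := Fintype.card_pos_iff.mpr ⟨i⟩
    rw [Fintype.card_prod]
    have h2 : (2 : ℝ) ^ (Fintype.card ι * Fintype.card κ)
        = (2 : ℝ) ^ Fintype.card κ * ((2 : ℝ) ^ Fintype.card κ) ^ (Fintype.card ι - 1) := by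
      rw [← pow_succ', ← pow_mul, Nat.sub_add_cancel hn, Nat.mul_comm]
    rw [h2, div_mul_div_comm, div_eq_div_iff (by positivity) (by positivity)]
    linear_combination ((2 : ℝ) ^ Fintype.card κ) * h

lemma Good.map {f : (ι → Bool) → Bool} {d : ℕ} {w : ℝ} (hf : Good f d w) (e : ι ≃ κ) :
    Good (fun x : κ → Bool => f (fun i => x (e i))) d w := by
  have key : ∀ S : Finset κ,
      co (fun x : κ → Bool => f (fun i => x (e i))) S = co f (S.map e.symm.toEmbedding) := by
    intro S
    unfold co
    symm
    apply Fintype.sum_equiv (Equiv.arrowCongr e (Equiv.refl Bool))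
    intro y
    have h1 : (fun i => (Equiv.arrowCongr e (Equiv.refl Bool) y) (e i)) = y := by
      funext i; simp [Equiv.arrowCongr]
    beta_reduce
    rw [h1]
    congr 1
    unfold chi
    rw [Finset.prod_map]
    apply Finset.prod_congr rfl
    intro k _
    simp [Equiv.arrowCongr]
  constructor
  · intro S hS
    rw [key]; apply hf.deg; rw [Finset.card_map]; exact hS
  · rw [← hf.lvl, ← Fintype.card_congr e]
    symm
    apply Fintype.sum_equiv e
    intro i
    rw [key, Finset.map_singleton]; simp

end composition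

section final

/-- the dictator on one variable. -/
lemma good_dict : Good (fun x : Fin 1 → Bool => x 0) 1 1 := by
  constructor
  · intro S hS
    exfalso
    have := Finset.card_le_univ S
    simp at this; omega
  · simp [co, chi, sg_mul_self]

/-- iterated read-once composition of a balanced function. -/
lemma iterate {m : ℕ} (g : (Fin m → Bool) → Bool) (d0 : ℕ) (w : ℝ) (hg : Good g d0 w)
    (hbal : co g ∅ = 0) :
    ∀ k : ℕ, ∃ n : ℕ, ∃ f : (Fin n → Bool) → Bool, Good f (d0 ^ k) (w ^ k) := by
  intro k
  induction k with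
  | zero => exact ⟨1, _, by simpa using good_dict⟩
  | succ k ih =>
    obtain ⟨n, f, hf⟩ := ih
    have h := (hf.comp hg hbal).map finProdFinEquiv
    rw [← pow_succ, ← pow_succ] at h
    exact ⟨n * m, _, h⟩

/-- **Amplification lemma for S0085.**  One balanced Boolean function `g` on `m` variables whose
Fourier–Walsh coefficients vanish above level `d0` and whose normalised level-one sum `w`
exceeds `√d0` yields the conclusion of the frozen statement S0085 for every `C > 0`. -/
theorem amplify {m : ℕ} (g : (Fin m → Bool) → Bool) (d0 : ℕ) (w : ℝ)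
    (hbal : ∑ x : Fin m → Bool, (if g x then (1 : ℝ) else -1) = 0)
    (hdeg : ∀ S : Finset (Fin m), d0 < S.card →
      ∑ x : Fin m → Bool,
        ((if g x then (1 : ℝ) else -1) * ∏ i ∈ S, (if x i then (1 : ℝ) else -1)) = 0)
    (hlvl : ∑ i : Fin m, (∑ x : Fin m → Bool,
        ((if g x then (1 : ℝ) else -1) * (if x i then (1 : ℝ) else -1))) / 2 ^ m = w)
    (hw : Real.sqrt d0 < w) (C : ℝ) (_hC : 0 < C) :
    ∃ n : ℕ, ∃ f : (Fin n → Bool) → Bool, ∃ d : ℕ,
      (∃ x y, f x ≠ f y) ∧
      (∀ S : Finset (Fin n), d < S.card →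
        ∑ x : Fin n → Bool,
          ((if f x then (1 : ℝ) else -1) * ∏ i ∈ S, (if x i then (1 : ℝ) else -1)) = 0) ∧
      C * Real.sqrt d <
        ∑ i : Fin n, (∑ x : Fin n → Bool,
          ((if f x then (1 : ℝ) else -1) * (if x i then (1 : ℝ) else -1))) / 2 ^ n := by
  have hg : Good g d0 w := by
    constructor
    · intro S hS; exact hdeg S hS
    · simp only [co, chi, Finset.prod_singleton, Fintype.card_fin]; exact hlvl
  have hbal' : co g ∅ = 0 := by
    simp only [co, chi, Finset.prod_empty, mul_one]; exact hbal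
  have hs0 : 0 ≤ Real.sqrt d0 := Real.sqrt_nonneg _
  have hw0 : 0 < w := lt_of_le_of_lt hs0 hw
  have hsq : ∀ k : ℕ, Real.sqrt ((d0 ^ k : ℕ) : ℝ) = Real.sqrt d0 ^ k := by
    intro k
    induction k with
    | zero => simp
    | succ k ih => rw [pow_succ, Nat.cast_mul, Real.sqrt_mul (by positivity), ih, pow_succ]
  obtain ⟨k, hk⟩ : ∃ k : ℕ, C * Real.sqrt d0 ^ k < w ^ k := by
    by_cases h0 : Real.sqrt d0 = 0
    · exact ⟨1, by rw [h0]; simpa using hw0⟩
    · have hspos : 0 < Real.sqrt d0 := lt_of_le_of_ne hs0 (Ne.symm h0)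
      have h1 : 1 < w / Real.sqrt d0 := by rw [one_lt_div hspos]; exact hw
      obtain ⟨k, hk⟩ := pow_unbounded_of_one_lt C h1
      refine ⟨k, ?_⟩
      rw [div_pow, lt_div_iff₀ (by positivity)] at hk
      exact hk
  obtain ⟨n, f, hf⟩ := iterate g d0 w hg hbal' k
  refine ⟨n, f, d0 ^ k, ?_, ?_, ?_⟩
  · by_contra hcon
    push Not at hcon
    have hz : ∀ i : Fin n, co f {i} = 0 := by
      intro i
      unfold co
      have hx : ∀ x : Fin n → Bool,
          sg (f x) * chi {i} x = sg (f (fun _ => true)) * chi {i} x := by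
        intro x; rw [hcon x (fun _ => true)]
      simp_rw [hx]
      rw [← Finset.mul_sum, sum_chi, if_neg (Finset.singleton_ne_empty _), mul_zero]
    have h1 := hf.lvl
    simp only [hz, zero_div, Finset.sum_const_zero] at h1
    have hpos : 0 < w ^ k := pow_pos hw0 k
    linarith
  · intro S hS; exact hf.deg S hS
  · have h1 := hf.lvl
    simp only [co, chi, Finset.prod_singleton, Fintype.card_fin] at h1
    rw [hsq]
    calc C * Real.sqrt d0 ^ k < w ^ k := hk
      _ = _ := h1.symm

end final

end Crest.Agent.Helper29.S85
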