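/-
helper29: kernel-checkable bridge for S0085.  A Boolean function on `m` variables is given as a
perfect binary tree `BT m` (truth table); its Walsh–Hadamard transform is computed on integer
trees, and the three base facts needed by `amplify` (balanced, coefficients vanish above level
`d0`, level-one sum) are reduced to closed decidable statements about that transform.
-/
import Crest.Agent.Helper29.S0085Amplify

set_option autoImplicit false

namespace Crest.Agent.Helper29.S85

open Finset

/-- perfect binary trees of depth `m` with Boolean leaves: truth tables on `m` variables. -/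
inductive BT : ℕ → Type
  | leaf : Bool → BT 0
  | node {m : ℕ} : BT m → BT m → BT (m + 1)

/-- perfect binary trees of depth `m` with integer leaves. -/
inductive ZT : ℕ → Type
  | leaf : ℤ → ZT 0
  | node {m : ℕ} : ZT m → ZT m → ZT (m + 1)

/-- evaluation: variable `0` is read first; `true` goes to the first subtree. -/
def BT.eval : {m : ℕ} → BT m → (Fin m → Bool) → Bool
  | _, BT.leaf b, _ => b
  | _, BT.node l r, x => if x 0 then BT.eval l (Fin.tail x) else BT.eval r (Fin.tail x)

namespace ZT

def add : {m : ℕ} → ZT m → ZT m → ZT m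
  | _, leaf a, leaf b => leaf (a + b)
  | _, node a b, node c d => node (add a c) (add b d)

def sub : {m : ℕ} → ZT m → ZT m → ZT m
  | _, leaf a, leaf b => leaf (a - b)
  | _, node a b, node c d => node (sub a c) (sub b d)

/-- entry at index `s` (`s i = true` means: second subtree at level `i`). -/
def get : {m : ℕ} → ZT m → (Fin m → Bool) → ℤ
  | _, leaf z, _ => z
  | _, node a b, s => if s 0 then get b (Fin.tail s) else get a (Fin.tail s)

/-- entry at the all-`false` index. -/
def lvl0 : {m : ℕ} → ZT m → ℤ
  | _, leaf z => z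
  | _, node a _ => lvl0 a

/-- sum of the entries at the indices with exactly one `true`. -/
def lvl1 : {m : ℕ} → ZT m → ℤ
  | _, leaf _ => 0
  | _, node a b => lvl1 a + lvl0 b

/-- all entries whose index has more than `d - k` `true`s vanish. -/
def chk : {m : ℕ} → ZT m → ℕ → ℕ → Bool
  | _, leaf z, k, d => decide (k ≤ d) || decide (z = 0)
  | _, node a b, k, d => chk a k d && chk b (k + 1) d

lemma get_add {m : ℕ} (a b : ZT m) (s : Fin m → Bool) :
    (a.add b).get s = a.get s + b.get s := by
  induction a with
  | leaf x => cases b with | leaf y => simp [add, get]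
  | node a1 a2 ih1 ih2 =>
    cases b with
    | node b1 b2 =>
      simp only [add, get]
      split <;> simp [ih1, ih2]

lemma get_sub {m : ℕ} (a b : ZT m) (s : Fin m → Bool) :
    (a.sub b).get s = a.get s - b.get s := by
  induction a with
  | leaf x => cases b with | leaf y => simp [sub, get]
  | node a1 a2 ih1 ih2 =>
    cases b with
    | node b1 b2 =>
      simp only [sub, get]
      split <;> simp [ih1, ih2]

lemma lvl0_eq {m : ℕ} (t : ZT m) : t.lvl0 = t.get (fun _ => false) := by
  induction t with
  | leaf z => rfl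
  | node a b iha _ =>
    simp only [lvl0, get]
    rw [iha]
    rfl

lemma lvl1_eq {m : ℕ} (t : ZT m) : t.lvl1 = ∑ i : Fin m, t.get (fun j => decide (j = i)) := by
  induction t with
  | leaf z => simp [lvl1]
  | @node n a b iha _ =>
    rw [Fin.sum_univ_succ]
    simp only [lvl1, get]
    have h0 : (Fin.tail fun j : Fin (n + 1) => decide (j = 0)) = fun _ => false := by
      funext j; simp [Fin.tail, Fin.succ_ne_zero]
    have h1 : ∀ i : Fin n, (Fin.tail fun j : Fin (n + 1) => decide (j = i.succ))
        = fun j => decide (j = i) := by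
      intro i; funext j; simp [Fin.tail]
    have h2 : ∀ i : Fin n, decide ((0 : Fin (n + 1)) = i.succ) = false := by
      intro i; simp [Fin.succ_ne_zero, eq_comm]
    simp only [h0, h1, h2, decide_true, if_true, Bool.false_eq_true, if_false, lvl0_eq, iha]
    rw [add_comm]

lemma chk_spec {m : ℕ} (t : ZT m) (k d : ℕ) (h : t.chk k d = true) (s : Fin m → Bool)
    (hs : d < k + ∑ i : Fin m, (if s i then 1 else 0)) : t.get s = 0 := by
  induction t generalizing k with
  | leaf z =>
    simp only [chk, Bool.or_eq_true, decide_eq_true_eq] at h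
    simp at hs
    rcases h with h | h
    · omega
    · exact h
  | @node n a b iha ihb =>
    simp only [chk, Bool.and_eq_true] at h
    rw [Fin.sum_univ_succ] at hs
    simp only [get]
    have htail : ∑ i : Fin n, (if Fin.tail s i = true then 1 else 0)
        = ∑ i : Fin n, (if s i.succ = true then 1 else 0) := rfl
    by_cases h0 : s 0 = true
    · rw [if_pos h0]
      apply ihb (k + 1) h.2
      rw [if_pos h0] at hs
      omega
    · rw [if_neg h0]
      apply iha k h.1
      rw [if_neg h0] at hs
      omega

end ZT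

/-- Walsh–Hadamard transform of a truth table. -/
def BT.wht : {m : ℕ} → BT m → ZT m
  | _, BT.leaf b => ZT.leaf (if b then 1 else -1)
  | _, BT.node l r => ZT.node (ZT.add (BT.wht l) (BT.wht r)) (ZT.sub (BT.wht l) (BT.wht r))

/-- truth table read off the bits of a natural number `t`: the leaf reached by the input `x`
is bit number `∑ i, [x i] * 2 ^ (m - 1 - i)` of `t` (variable `0` is the most significant). -/
def BT.ofNat : (m : ℕ) → ℕ → BT m
  | 0, t => BT.leaf (t.testBit 0)
  | m + 1, t => BT.node (BT.ofNat m (t >>> (2 ^ m))) (BT.ofNat m t)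

/-- integer sign. -/
def sgZ (b : Bool) : ℤ := if b then 1 else -1

lemma sum_cons {M : Type} [AddCommMonoid M] {m : ℕ} (F : (Fin (m + 1) → Bool) → M) :
    ∑ x, F x = ∑ x' : Fin m → Bool, F (Fin.cons true x')
      + ∑ x' : Fin m → Bool, F (Fin.cons false x') := by
  rw [← (Fin.consEquiv (fun _ : Fin (m + 1) => Bool)).sum_comp, Fintype.sum_prod_type,
    Fintype.sum_bool]
  rfl

lemma wht_get {m : ℕ} (T : BT m) (s : Fin m → Bool) :
    T.wht.get s
      = ∑ x : Fin m → Bool, sgZ (T.eval x) * ∏ i, (if s i then sgZ (x i) else 1) := by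
  induction T with
  | leaf b => cases b <;> simp [BT.wht, ZT.get, BT.eval, sgZ]
  | @node n l r ihl ihr =>
    have hl : l.wht.get (Fin.tail s)
        = ∑ x, sgZ (l.eval x) * ∏ i, (if s i.succ then sgZ (x i) else 1) := ihl (Fin.tail s)
    have hr : r.wht.get (Fin.tail s)
        = ∑ x, sgZ (r.eval x) * ∏ i, (if s i.succ then sgZ (x i) else 1) := ihr (Fin.tail s)
    have e1 : ∀ (b : Bool) (x' : Fin n → Bool),
        (BT.node l r).eval (Fin.cons b x') = if b then l.eval x' else r.eval x' := by
      intro b x'; simp [BT.eval]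
    have e2 : ∀ (b : Bool) (x' : Fin n → Bool),
        ∏ i : Fin (n + 1), (if s i then sgZ ((Fin.cons b x' : Fin (n + 1) → Bool) i) else 1)
          = (if s 0 then sgZ b else 1) * ∏ i : Fin n, (if s i.succ then sgZ (x' i) else 1) := by
      intro b x'; rw [Fin.prod_univ_succ]; simp only [Fin.cons_zero, Fin.cons_succ]
    rw [sum_cons]
    simp only [e1, e2, if_true, Bool.false_eq_true, if_false]
    have e3 : ∀ (c : ℤ) (u : BT n), ∑ x' : Fin n → Bool,
        sgZ (u.eval x') * (c * ∏ i : Fin n, (if s i.succ then sgZ (x' i) else 1))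
        = c * ∑ x' : Fin n → Bool,
            sgZ (u.eval x') * ∏ i : Fin n, (if s i.succ then sgZ (x' i) else 1) := by
      intro c u; rw [Finset.mul_sum]; apply Finset.sum_congr rfl; intro x' _; ring
    rw [e3, e3, ← hl, ← hr]
    simp only [BT.wht, ZT.get]
    by_cases h0 : s 0 = true
    · simp [h0, ZT.get_sub, sgZ]; ring
    · simp [h0, ZT.get_add]

/-- **Table version of the amplification lemma.**  All hypotheses are closed decidable
statements about the integer Walsh–Hadamard transform of the truth table `T`. -/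
theorem amplify_of_table {m : ℕ} (T : BT m) (d0 : ℕ) (W : ℤ)
    (hbal : T.wht.lvl0 = 0) (hdeg : T.wht.chk 0 d0 = true) (hlvl : T.wht.lvl1 = W)
    (hWpos : 0 < W) (hW : (d0 : ℤ) * 4 ^ m < W ^ 2) (C : ℝ) (hC : 0 < C) :
    ∃ n : ℕ, ∃ f : (Fin n → Bool) → Bool, ∃ d : ℕ,
      (∃ x y, f x ≠ f y) ∧
      (∀ S : Finset (Fin n), d < S.card →
        ∑ x : Fin n → Bool,
          ((if f x then (1 : ℝ) else -1) * ∏ i ∈ S, (if x i then (1 : ℝ) else -1)) = 0) ∧
      C * Real.sqrt d <
        ∑ i : Fin n, (∑ x : Fin n → Bool,
          ((if f x then (1 : ℝ) else -1) * (if x i then (1 : ℝ) else -1))) / 2 ^ n := by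
  have key : ∀ S : Finset (Fin m), ∑ x : Fin m → Bool,
      ((if T.eval x then (1 : ℝ) else -1) * ∏ i ∈ S, (if x i then (1 : ℝ) else -1))
      = ((T.wht.get (fun i => decide (i ∈ S)) : ℤ) : ℝ) := by
    intro S
    rw [wht_get]
    push_cast
    apply Finset.sum_congr rfl
    intro x _
    congr 1
    · simp [sgZ]
    · rw [← Fintype.prod_ite_mem]
      apply Finset.prod_congr rfl
      intro i _
      by_cases h : i ∈ S <;> simp [h, sgZ]
  apply amplify T.eval d0 ((W : ℝ) / 2 ^ m) ?_ ?_ ?_ ?_ C hC
  · have h := key ∅
    simp only [Finset.prod_empty, mul_one, Finset.notMem_empty, decide_false] at h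
    rw [h, ← ZT.lvl0_eq, hbal]; simp
  · intro S hS
    rw [key]
    have : T.wht.get (fun i => decide (i ∈ S)) = 0 := by
      apply ZT.chk_spec _ 0 d0 hdeg
      simp only [decide_eq_true_eq, zero_add]
      rw [Fintype.sum_ite_mem]
      simpa using hS
    rw [this]; simp
  · have h1 : ∀ i : Fin m, ∑ x : Fin m → Bool,
        ((if T.eval x then (1 : ℝ) else -1) * (if x i then (1 : ℝ) else -1))
        = ((T.wht.get (fun j => decide (j = i)) : ℤ) : ℝ) := by
      intro i
      have h := key {i}
      simp only [Finset.prod_singleton, Finset.mem_singleton] at h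
      exact h
    simp_rw [h1]
    rw [← Finset.sum_div, ← Int.cast_sum, ← ZT.lvl1_eq, hlvl]
  · rw [Real.sqrt_lt' (by positivity)]
    rw [div_pow, lt_div_iff₀ (by positivity)]
    have h4 : ((2 : ℝ) ^ m) ^ 2 = (4 : ℝ) ^ m := by
      rw [← pow_mul, mul_comm, pow_mul]; norm_num
    rw [h4]
    exact_mod_cast hW

end Crest.Agent.Helper29.S85
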