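import Crest.Agent.Helper5.SqBasic

/-!
# Row 211 / S0326: parameter choices and finite index sets

* `exists_kappa`: uniform gap `L² (-det DV) ≤ 1 - κ` on the compact set `D`;
* `finite_latPt`: finitely many lattice points in a ball;
* `finite_cells`: finitely many lattice cells meet a bounded set.
-/

set_option autoImplicit false

namespace Crest.Agent.Helper29

open MeasureTheory Crest.Agent.Helper5 Filter Topology

/-- Uniform gap for the determinant condition on a compact set. -/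
theorem exists_kappa (D : Set E2) (hD : IsCompact D) (V : E2 → E2) (U : Set E2) (hU : IsOpen U)
    (hDU : D ⊆ U) (hV : ContDiffOn ℝ 1 V U) (L : ℝ) (hL : 0 < L)
    (hdet : ∀ p ∈ D, -(L ^ 2)⁻¹ < LinearMap.det (fderiv ℝ V p).toLinearMap) :
    ∃ κ : ℝ, 0 < κ ∧ κ ≤ 1 ∧
      ∀ p ∈ D, L ^ 2 * (-(LinearMap.det (fderiv ℝ V p).toLinearMap)) ≤ 1 - κ := by
  have hL2 : 0 < L ^ 2 := by positivity
  have hcont : ContinuousOn
      (fun p => L ^ 2 * (-(LinearMap.det (fderiv ℝ V p).toLinearMap))) D := by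
    have h1 : ContinuousOn (fun p => fderiv ℝ V p) D :=
      (hV.continuousOn_fderiv_of_isOpen hU le_rfl).mono hDU
    have h2 : ContinuousOn (fun p => (fderiv ℝ V p).det) D :=
      ContinuousLinearMap.continuous_det.comp_continuousOn h1
    exact continuousOn_const.mul h2.neg
  have hlt : ∀ p ∈ D, L ^ 2 * (-(LinearMap.det (fderiv ℝ V p).toLinearMap)) < 1 := by
    intro p hp
    have h := hdet p hp
    have h' : L ^ 2 * (-(LinearMap.det (fderiv ℝ V p).toLinearMap)) < L ^ 2 * (L ^ 2)⁻¹ :=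
      mul_lt_mul_of_pos_left (by linarith) hL2
    rwa [mul_inv_cancel₀ hL2.ne'] at h'
  rcases D.eq_empty_or_nonempty with hDe | hDne
  · exact ⟨1, one_pos, le_rfl, fun p hp => by rw [hDe] at hp; exact absurd hp (Set.notMem_empty p)⟩
  · obtain ⟨p₁, hp₁, hmax⟩ := hD.exists_isMaxOn hDne hcont
    refine ⟨min 1 (1 - L ^ 2 * (-(LinearMap.det (fderiv ℝ V p₁).toLinearMap))),
      lt_min one_pos (by linarith [hlt p₁ hp₁]), min_le_left _ _, fun p hp => ?_⟩
    have h1 : L ^ 2 * (-(LinearMap.det (fderiv ℝ V p).toLinearMap)) ≤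
        L ^ 2 * (-(LinearMap.det (fderiv ℝ V p₁).toLinearMap)) := hmax hp
    have h2 := min_le_right (1 : ℝ) (1 - L ^ 2 * (-(LinearMap.det (fderiv ℝ V p₁).toLinearMap)))
    linarith

/-- Finitely many lattice points lie in a ball. -/
theorem finite_latPt (f : OrthonormalBasis (Fin 2) ℝ E2) (p₀ : E2) (ρ : ℝ) (hρ : 0 < ρ) (c : E2)
    (R : ℝ) : {j : ℤ × ℤ | ‖latPt f p₀ ρ j - c‖ ≤ R}.Finite := by
  have key : ∀ (a : ℝ) (n : ℤ), |ρ * n - a| ≤ R → n ∈ Set.Icc ⌊(a - R) / ρ⌋ ⌈(a + R) / ρ⌉ := by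
    intro a n hn
    have h := abs_le.mp hn
    constructor
    · have h1 : (a - R) / ρ ≤ n := by rw [div_le_iff₀ hρ]; nlinarith
      exact Int.cast_le.mp ((Int.floor_le _).trans h1)
    · have h1 : (n : ℝ) ≤ (a + R) / ρ := by rw [le_div_iff₀ hρ]; nlinarith
      exact Int.cast_le.mp (h1.trans (Int.le_ceil _))
  refine ((Set.finite_Icc ⌊(inner ℝ (f 0) (c - p₀) - R) / ρ⌋ ⌈(inner ℝ (f 0) (c - p₀) + R) / ρ⌉).prod
    (Set.finite_Icc ⌊(inner ℝ (f 1) (c - p₀) - R) / ρ⌋ ⌈(inner ℝ (f 1) (c - p₀) + R) / ρ⌉)).subset ?_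
  intro j hj
  have hj' : ‖c - latPt f p₀ ρ j‖ ≤ R := by rw [norm_sub_rev]; exact hj
  have h0 := (frame_abs_inner_le f 0 _).trans hj'
  have h1 := (frame_abs_inner_le f 1 _).trans hj'
  rw [inner_sub_latPt] at h0 h1
  simp only [if_true, Fin.isValue, one_ne_zero, if_false] at h0 h1
  refine ⟨key _ _ ?_, key _ _ ?_⟩
  · rw [abs_sub_comm]; exact h0
  · rw [abs_sub_comm]; exact h1

/-- Finitely many lattice cells meet a bounded set. -/
theorem finite_cells (f : OrthonormalBasis (Fin 2) ℝ E2) (p₀ : E2) (r : ℝ) (hr : 0 < r)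
    (D : Set E2) (hD : Bornology.IsBounded D) :
    {z : ℤ × ℤ | (Crest.Agent.Helper5.sq f (latPt f p₀ r z) r ∩ D).Nonempty}.Finite := by
  obtain ⟨R, hR⟩ := hD.exists_norm_le
  refine (finite_latPt f p₀ r hr 0 (R + 2 * r)).subset ?_
  intro z hz
  obtain ⟨q, hq1, hq2⟩ := hz
  have h1 := norm_sub_le_of_mem_sq f _ r _ q (self_mem_sq f (latPt f p₀ r z) r hr) hq1
  have h2 := hR q hq2
  show ‖latPt f p₀ r z - 0‖ ≤ R + 2 * r
  rw [sub_zero]
  calc ‖latPt f p₀ r z‖ = ‖(latPt f p₀ r z - q) + q‖ := by rw [sub_add_cancel]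
    _ ≤ ‖latPt f p₀ r z - q‖ + ‖q‖ := norm_add_le _ _
    _ ≤ R + 2 * r := by linarith

end Crest.Agent.Helper29
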