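import Crest.Agent.Helper5.SqDefs

/-!
# Row 211 / S0326: choice of the mesh `r` (thickenings of a compact set)
-/

set_option autoImplicit false

namespace Crest.Agent.Helper29

open MeasureTheory Crest.Agent.Helper5 Filter Topology

/-- For a compact `D` inside an open `U` and `η > 0`, all small closed thickenings of `D` stay in
`U` and have volume at most `vol D + η`. -/
theorem exists_r_thick (D U : Set E2) (hD : IsCompact D) (hU : IsOpen U) (hDU : D ⊆ U) (η : ℝ)
    (hη : 0 < η) :
    ∃ r₀ : ℝ, 0 < r₀ ∧ ∀ r : ℝ, 0 < r → r ≤ r₀ → Metric.cthickening (2 * r) D ⊆ U ∧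
      (volume (Metric.cthickening (2 * r) D)).toReal - (volume D).toReal ≤ η := by
  obtain ⟨δ, hδ, hδU⟩ := hD.exists_cthickening_subset_open hU hDU
  have h1 : Tendsto (fun r : ℝ => (volume (Metric.cthickening r D)).toReal) (𝓝 0)
      (𝓝 (volume D).toReal) :=
    (ENNReal.tendsto_toReal hD.measure_lt_top.ne).comp (tendsto_measure_cthickening_of_isCompact hD)
  have h2 : ∀ᶠ r : ℝ in 𝓝 0, (volume (Metric.cthickening r D)).toReal < (volume D).toReal + η :=
    h1.eventually (gt_mem_nhds (by linarith))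
  obtain ⟨δ', hδ', hδ'2⟩ := Metric.eventually_nhds_iff.mp h2
  refine ⟨min δ δ' / 4, by positivity, fun r hr hr' => ?_⟩
  have hm1 : min δ δ' ≤ δ := min_le_left _ _
  have hm2 : min δ δ' ≤ δ' := min_le_right _ _
  have hmpos : 0 < min δ δ' := lt_min hδ hδ'
  refine ⟨(Metric.cthickening_mono (by linarith) D).trans hδU, ?_⟩
  have h3 := hδ'2 (y := 2 * r) (by
    rw [Real.dist_eq, sub_zero, abs_of_pos (by linarith)]; linarith)
  linarith

end Crest.Agent.Helper29
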