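/-
helper29: uniform first-order Taylor estimate on a compact set (for S0326, row 211).
-/
import Mathlib

set_option autoImplicit false

namespace Crest.Agent.Helper29

abbrev E2 : Type := EuclideanSpace ℝ (Fin 2)

/-- uniform `C¹` remainder on a compact subset of the open domain. -/
theorem uniform_C1 (D : Set E2) (hD : IsCompact D) (V : E2 → E2) (U : Set E2) (hU : IsOpen U)
    (hDU : D ⊆ U) (hV : ContDiffOn ℝ 1 V U) (η : ℝ) (hη : 0 < η) :
    ∃ r : ℝ, 0 < r ∧ ∀ p₀ ∈ D, ∀ p : E2, ‖p - p₀‖ ≤ r →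
      p ∈ U ∧ ‖V p - V p₀ - fderiv ℝ V p₀ (p - p₀)‖ ≤ η * ‖p - p₀‖ := by
  obtain ⟨δ, hδ, hKU⟩ := hD.exists_cthickening_subset_open hU hDU
  have hK : IsCompact (Metric.cthickening δ D) := hD.cthickening
  have hcont : ContinuousOn (fderiv ℝ V) U := hV.continuousOn_fderiv_of_isOpen hU le_rfl
  have hdiff : ∀ x ∈ U, DifferentiableAt ℝ V x := fun x hx =>
    (hV.differentiableOn one_ne_zero).differentiableAt (hU.mem_nhds hx)
  have huc : UniformContinuousOn (fderiv ℝ V) (Metric.cthickening δ D) :=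
    hK.uniformContinuousOn_of_continuous (hcont.mono hKU)
  rw [Metric.uniformContinuousOn_iff] at huc
  obtain ⟨ρ, hρ, hρ'⟩ := huc η hη
  refine ⟨min δ (ρ / 2), lt_min hδ (by positivity), ?_⟩
  intro p₀ hp₀ p hp
  have hpδ : ‖p - p₀‖ ≤ δ := hp.trans (min_le_left _ _)
  have hpρ : ‖p - p₀‖ < ρ := lt_of_le_of_lt (hp.trans (min_le_right _ _)) (by linarith)
  have hball : Metric.closedBall p₀ (‖p - p₀‖) ⊆ Metric.cthickening δ D := by
    intro x hx
    rw [Metric.mem_closedBall] at hx
    exact Metric.mem_cthickening_of_dist_le x p₀ δ D hp₀ (hx.trans hpδ)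
  have hpK : p ∈ Metric.cthickening δ D :=
    hball (by rw [Metric.mem_closedBall, dist_eq_norm])
  refine ⟨hKU hpK, ?_⟩
  set A := fderiv ℝ V p₀ with hA
  have key := Convex.norm_image_sub_le_of_norm_fderiv_le (𝕜 := ℝ)
    (f := fun x => V x - A x) (C := η) (s := Metric.closedBall p₀ (‖p - p₀‖))
    (x := p₀) (y := p) ?_ ?_ (convex_closedBall _ _) ?_ ?_
  · have : (fun x => V x - A x) p - (fun x => V x - A x) p₀ = V p - V p₀ - A (p - p₀) := by
      simp only [map_sub]; abel
    rw [this] at key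
    exact key
  · intro x hx
    exact (hdiff x (hKU (hball hx))).sub A.differentiableAt
  · intro x hx
    have hxK := hball hx
    have hd : fderiv ℝ (fun x => V x - A x) x = fderiv ℝ V x - A := by
      rw [fderiv_fun_sub (hdiff x (hKU hxK)) A.differentiableAt, ContinuousLinearMap.fderiv]
    rw [hd, ← dist_eq_norm]
    have hdist : dist x p₀ < ρ := by
      rw [Metric.mem_closedBall] at hx
      exact lt_of_le_of_lt hx hpρ
    exact (hρ' x hxK p₀ (Metric.self_subset_cthickening D hp₀) hdist).le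
  · rw [Metric.mem_closedBall, dist_self]; exact norm_nonneg _
  · rw [Metric.mem_closedBall, dist_eq_norm]

/-- `V` and its derivative are bounded on the compact set. -/
theorem bounded_V (D : Set E2) (hD : IsCompact D) (V : E2 → E2) (U : Set E2) (hU : IsOpen U)
    (hDU : D ⊆ U) (hV : ContDiffOn ℝ 1 V U) :
    ∃ C : ℝ, 0 ≤ C ∧ ∀ p ∈ D, ‖V p‖ ≤ C ∧ ‖fderiv ℝ V p‖ ≤ C := by
  have hcont : ContinuousOn (fderiv ℝ V) U := hV.continuousOn_fderiv_of_isOpen hU le_rfl
  obtain ⟨C1, hC1⟩ := hD.exists_bound_of_continuousOn (hV.continuousOn.mono hDU)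
  obtain ⟨C2, hC2⟩ := hD.exists_bound_of_continuousOn (hcont.mono hDU)
  refine ⟨max (max C1 C2) 0, le_max_right _ _, fun p hp => ⟨?_, ?_⟩⟩
  · exact (hC1 p hp).trans ((le_max_left _ _).trans (le_max_left _ _))
  · exact (hC2 p hp).trans ((le_max_right _ _).trans (le_max_left _ _))

/-- the cost density is continuous on the open domain. -/
theorem continuousOn_J (V : E2 → E2) (U : Set E2) (hV : ContDiffOn ℝ 1 V U) (h : ℝ) :
    ContinuousOn (fun p => 1 / Real.sqrt (1 + (V p 0) ^ 2 + h ^ 2 * (V p 1) ^ 2)) U := by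
  have hc : ContinuousOn V U := hV.continuousOn
  have h0 : ContinuousOn (fun p => V p 0) U :=
    (EuclideanSpace.proj (0 : Fin 2)).continuous.comp_continuousOn hc
  have h1 : ContinuousOn (fun p => V p 1) U :=
    (EuclideanSpace.proj (1 : Fin 2)).continuous.comp_continuousOn hc
  have hs : ContinuousOn (fun p => Real.sqrt (1 + (V p 0) ^ 2 + h ^ 2 * (V p 1) ^ 2)) U :=
    Real.continuous_sqrt.comp_continuousOn
      ((continuousOn_const.add (h0.pow 2)).add (continuousOn_const.mul (h1.pow 2)))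
  refine continuousOn_const.div hs ?_
  intro p _
  have : 0 < 1 + (V p 0) ^ 2 + h ^ 2 * (V p 1) ^ 2 := by positivity
  exact (Real.sqrt_pos.mpr this).ne'

end Crest.Agent.Helper29
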